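import Vale.Agent.P158.Any.NoLane
import Vale.Agent.P158.Any.FacetNoFacet

/-!
P158: for every atomless law on `[0, ∞)` there is almost surely no bigeodesic.
-/

open MeasureTheory

theorem Vale.Agent.Results.P158.NoBigeodesic.result :
    ∀ (G : Measure ℝ) [IsProbabilityMeasure G], G (Set.Iio 0) = 0 → (∀ x, G {x} = 0) →
    ∀ᵐ ω ∂Measure.infinitePi (fun _ : Sym2 (ℤ × ℤ) => G),
      ¬ ∃ v : ℤ → ℤ × ℤ, Function.Injective v ∧
        (∀ i, |(v i).1 - (v (i + 1)).1| + |(v i).2 - (v (i + 1)).2| = 1) ∧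
        ∀ (i : ℤ) (n : ℕ), ∑ k ∈ Finset.range n, ω s(v (i + k), v (i + k + 1)) =
          sInf (Set.range fun p : (SimpleGraph.fromRel fun a c : ℤ × ℤ =>
            |a.1 - c.1| + |a.2 - c.2| = 1).Walk (v i) (v (i + n)) => (p.edges.map ω).sum) := by
  intro G _ h0 hatom
  have hG := Vale.Agent.P158.Any.ae_pos G h0 hatom
  exact Vale.Agent.P158.Any.statement_of_no_lane G hG
    (Vale.Agent.P158.Any.ae_no_lane_of_noFacet G hG hatom
      (Vale.Agent.P158.Any.noFacet_muA hG hatom))
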