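import Vale.Agent.P158.Lines

/-!
P158: no geodesic ray of planar first-passage percolation stays near a straight line.
-/

open MeasureTheory in
theorem Vale.Agent.Results.P158.NoRayNearLine.result :
    ∀ (G : Measure ℝ) [IsProbabilityMeasure G], G (Set.Iio 0) = 0 → (∀ x, G {x} ≠ 1) →
      ∀ᵐ ω ∂Measure.infinitePi (fun _ : Sym2 (ℤ × ℤ) => G),
        ¬ ∃ v : ℕ → ℤ × ℤ, Function.Injective v ∧
          (∀ i, |(v i).1 - (v (i + 1)).1| + |(v i).2 - (v (i + 1)).2| = 1) ∧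
          (∀ (i n : ℕ) (p : (SimpleGraph.fromRel fun u z : ℤ × ℤ =>
              |u.1 - z.1| + |u.2 - z.2| = 1).Walk (v i) (v (i + n))),
            ∑ k ∈ Finset.range n, ω s(v (i + k), v (i + k + 1)) ≤ (p.edges.map ω).sum) ∧
          ∃ α β γ w : ℝ, (α, β) ≠ (0, 0) ∧ ∀ i, |α * (v i).1 + β * (v i).2 + γ| ≤ w := by
  intro G _ hG0 hG
  filter_upwards [Vale.Agent.P158.lines_ae G hG0 hG] with ω hω
  rintro ⟨v, hinj, hadj, hgeo, hline⟩
  exact hω ⟨v, ⟨hinj, hadj, hgeo⟩, hline⟩
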